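import Vale.Agent.P022.Occ.Main
import Vale.Agent.P022.H121.SolvE

/-!
# Pro-modularity of odd 2-adic Galois representations with solvable image

`E` is a finite extension of `ℚ_2` with its absolute value, `r : G_ℚ → GL_2(E)` is continuous,
odd, absolutely irreducible and unramified outside finitely many primes, the image of `r` is
solvable, and the image of `r` in `PGL_2(E)` is not isomorphic to `A_4` or `S_4`. Then `r` occurs
at some odd level `N` all of whose prime divisors are primes at which `r` is ramified.
-/

namespace Vale.Agent.Results.P022.Solvable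

open Vale.Agent.P022.Occ

theorem result (E : Type) [NormedField E] [NormedAlgebra ℚ_[2] E] [FiniteDimensional ℚ_[2] E]
    (r : GQ →* Matrix.GeneralLinearGroup (Fin 2) E) (hr : Continuous r) (hodd : IsOdd r)
    (hirr : AbsIrred r) (hfin : {p : ℕ | p.Prime ∧ ¬ UnramQ r p}.Finite)
    (hsol : Group.IsSolvable r.range)
    (hA : ¬ Nonempty ((Matrix.ProjGenLinGroup.mk.comp r).range ≃* alternatingGroup (Fin 4)))
    (hS : ¬ Nonempty ((Matrix.ProjGenLinGroup.mk.comp r).range ≃* Equiv.Perm (Fin 4))) :
    ∃ N : ℕ, Odd N ∧ (∀ p : ℕ, p.Prime → p ∣ N → ¬ UnramQ r p) ∧ Occurs r N := by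
  have : CharZero E := charZero_of_injective_algebraMap (algebraMap ℚ_[2] E).injective
  obtain ⟨H, hH, hc⟩ := Vale.Agent.P022.exists_index_two r hirr hsol hA hS
  exact dihedral_occurs Vale.Agent.P022.H120.allG Vale.Agent.P022.H436.heckeSys
    E r hr hodd hirr hfin H hH hc

end Vale.Agent.Results.P022.Solvable
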